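import Vale.Agent.P273SG.Pg
import Vale.Agent.P273SG.P1
import Vale.Agent.P273SW.EG
import Vale.Agent.P273SW.UReal
import Vale.Agent.P273SW.UDen
import Vale.Agent.P273SW.Uext
import Vale.Agent.P273SW.Cmp
import Vale.Agent.P273SW.Wext
import Vale.Agent.P273SR.Psi
import Vale.Agent.P273SR.Reg
import Vale.Agent.P273SR.Uch
import Vale.Agent.P273SL.Wlc
import Vale.Agent.P273SZ.IF

/-!
# P273S: the rows of block W, from the left inverse `UINV`
-/

noncomputable section

namespace Vale.Agent.P273SH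

open Set Filter Topology Vale.Agent.P273SW

universe u

theorem uext' : UEXT := uext uan uden

theorem pg' : PG := P273SG.pg egs egd

theorem uch' (h : UINV) : UCH := P273SR.uch egs ureal uext' h

theorem pr' (h : UINV) : PR := P273SR.pr (uch' h)

theorem pv' (h : UINV) : PV := P273SR.pv (uch' h)

theorem p1' (h : UINV) : P1 := P273SG.p1 (uch' h)

theorem wext' (h : UINV) : WEXT := wext egs pg' (pr' h) (p1' h)

theorem wphi2' (h : UINV) : P273SZ.WPHI2.{u} := by
  intro Z _ cls hn
  obtain ⟨Φ, h1, h2⟩ := P273SL.wphi2 cmp (pr' h) Z cls hn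
  refine ⟨Φ, h1, fun w => ?_⟩
  obtain ⟨C, lam, k1, k2, k3, k4⟩ := h2 w
  exact ⟨20, C, fun y => lam y, k1, k2.comp continuous_subtype_val.continuousAt, k3, k4⟩

end Vale.Agent.P273SH

end
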